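import Vale.Agent.P366.Kerr.DefsL
import Vale.Agent.P366.H222.N.X0b
import Vale.Agent.P366.H208.N.ToDat

/-! Notation for the proofs on Kerr-Schild spacetimes with a null geodesic covector field. -/

open MeasureTheory Metric Filter Topology Set
open scoped ContDiff ENNReal

noncomputable section
namespace Vale.Agent.P366.KSL

open Vale.Agent.P366 (pd E)
open Vale.Agent.P366.H353.N (kd)
open Vale.Agent.P366.Kerr (sgn ksL ein pt IsKS)

variable {n : ℕ}

/-- `h = V l ⊗ l` -/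
def hh (l : Fin (n + 1) → E (n + 1) → ℝ) (V : E (n + 1) → ℝ) (a b : Fin (n + 1))
    (p : E (n + 1)) : ℝ := V p * l a p * l b p

/-- the mixed Einstein tensor `G^a_b` -/
def Gm (l : Fin (n + 1) → E (n + 1) → ℝ) (V : E (n + 1) → ℝ) (a b : Fin (n + 1))
    (p : E (n + 1)) : ℝ := ∑ c, Stmt.up (ksL l V) a c p * ein (ksL l V) c b p

/-- the superpotential `U^{ac}_b = (∂^a h^c_b - ∂^c h^a_b - δ^a_b ∂_d h^{cd} + δ^c_b ∂_d h^{ad}) / 2`
-/
def Up (l : Fin (n + 1) → E (n + 1) → ℝ) (V : E (n + 1) → ℝ) (a c b : Fin (n + 1))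
    (p : E (n + 1)) : ℝ :=
  (sgn a * sgn c * pd a (hh l V c b) p - sgn a * sgn c * pd c (hh l V a b) p -
    kd a b * (∑ d, sgn c * sgn d * pd d (hh l V c d) p) +
    kd c b * (∑ d, sgn a * sgn d * pd d (hh l V a d) p)) / 2

/-- the flux field `Z_b` of the hypersurface `t = f(y)` -/
def Zf (l : Fin (n + 1) → E (n + 1) → ℝ) (V : E (n + 1) → ℝ) (f : E n → ℝ) (b : Fin (n + 1))
    (i : Fin n) (y : E n) : ℝ :=
  Up l V 0 i.succ b (pt (f y) y) - ∑ j : Fin n, pd j f y * Up l V j.succ i.succ b (pt (f y) y)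

/-- `l` is moreover geodesic -/
structure IsKSg (l : Fin (n + 1) → E (n + 1) → ℝ) (V : E (n + 1) → ℝ) (p : E (n + 1)) : Prop
    extends IsKS l V p where
  geod : ∀ᶠ q in 𝓝 p, ∀ a, ∑ b, sgn b * l b q * Stmt.pd b (l a) q = 0

/-- the covector `(1, x)` -/
def lx (x : E n) (b : Fin (n + 1)) : ℝ := Fin.cons (α := fun _ => ℝ) 1 (fun i => x i) b

end Vale.Agent.P366.KSL
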