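import Vale.Agent.P366.H208.L.AFe

/-! Asymptotic flatness of the spacetime along a slice from that of the initial data. -/

open MeasureTheory Metric Filter Topology Set
open scoped ContDiff ENNReal

noncomputable section
namespace Vale.Agent.P366.KSL

open Vale.Agent.P366 (pd E)
open Vale.Agent.P366.H353.N
open Vale.Agent.P366.Kerr (NullCone Psi pt sp indG indK sgn ksL ein IsKS IsGraph
  IsSliceL HasDEC tng con lapse)

variable {n : ℕ} {C : NullCone n} {l : Fin (n + 1) → E (n + 1) → ℝ} {V : E (n + 1) → ℝ}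
  {f : E n → ℝ} {D : Stmt.Exterior n} {p : E (n + 1)} {x y : E n}

/-- the asymptotic flatness of the spacetime along the slice -/
def AF4 (l : Fin (n + 1) → E (n + 1) → ℝ) (V : E (n + 1) → ℝ) (f : E n → ℝ) : Prop :=
  ∃ q B R : ℝ, (n : ℝ) / 2 - 1 < q ∧ 1 ≤ R ∧ ∀ y : E n, R < ‖y‖ →
    (∀ a b, |hh l V a b (pt (f y) y)| ≤ B * ‖y‖ ^ (-q)) ∧
    (∀ a b c, |pd c (hh l V a b) (pt (f y) y)| ≤ B * ‖y‖ ^ (-(q + 1))) ∧
    (∀ i, |pd i f y| ≤ B * ‖y‖ ^ (-q)) ∧ ∀ i j, |hs f i j y| ≤ B * ‖y‖ ^ (-(q + 1))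

theorem bigO_unif {ι : Type} [Fintype ι] {F : ι → E n → ℝ} {q q' : ℝ}
    (h : ∀ i, Stmt.BigO q' (F i)) (hq : q ≤ q') : ∃ C R : ℝ, 0 ≤ C ∧ 1 ≤ R ∧
    ∀ y : E n, R < ‖y‖ → ∀ i, |F i y| ≤ C * ‖y‖ ^ (-q) := by
  choose c r hc using h
  refine ⟨∑ i, |c i|, 1 + ∑ i, |r i|, Finset.sum_nonneg fun i _ => abs_nonneg _,
    by linarith [Finset.sum_nonneg fun i (_ : i ∈ Finset.univ) => abs_nonneg (r i)],
    fun y hy i => ?_⟩
  have h1 : |r i| ≤ ∑ j, |r j| :=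
    Finset.single_le_sum (f := fun j => |r j|) (fun j _ => abs_nonneg _) (Finset.mem_univ i)
  have h2 : |c i| ≤ ∑ j, |c j| :=
    Finset.single_le_sum (f := fun j => |c j|) (fun j _ => abs_nonneg _) (Finset.mem_univ i)
  have h3 : 0 ≤ |r i| := abs_nonneg _
  have hy1 : 1 ≤ ‖y‖ := by linarith
  have h4 := hc i y (show r i < ‖y‖ by linarith [le_abs_self (r i)])
  have h5 : ‖y‖ ^ (-q') ≤ ‖y‖ ^ (-q) := Real.rpow_le_rpow_of_exponent_le hy1 (by linarith)
  have h6 : 0 ≤ ‖y‖ ^ (-q') := Real.rpow_nonneg (norm_nonneg _) _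
  calc |F i y| ≤ c i * ‖y‖ ^ (-q') := h4
    _ ≤ |c i| * ‖y‖ ^ (-q') := mul_le_mul_of_nonneg_right (le_abs_self _) h6
    _ ≤ (∑ j, |c j|) * ‖y‖ ^ (-q) := mul_le_mul h2 h5 h6 ((abs_nonneg _).trans h2)

/-- **[V6a]** -/
theorem af4 [Fact (3 ≤ n)] (hS : IsSliceL C l V f D) (hAF : D.IsAF) : AF4 l V f := by
  have h3 := Fact.out (p := 3 ≤ n)
  have hn3 : (3 : ℝ) ≤ (n : ℝ) := by exact_mod_cast h3
  obtain ⟨q1, hq1, h1⟩ := hAF
  obtain ⟨q2, hq2, h2⟩ := hS.asy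
  set q := min q1 q2 with hq
  have hq0 : (n : ℝ) / 2 - 1 < q := lt_min hq1 hq2
  have hqp : 0 < q := by linarith
  have e1 : q ≤ q1 := min_le_left _ _
  have e2 : q ≤ q2 := min_le_right _ _
  let i0 : Fin n := ⟨0, by omega⟩
  obtain ⟨C1, R1, c1, r1, b1⟩ := bigO_unif (ι := Fin n × Fin n)
    (F := fun a x => D.g x a.1 a.2 - if a.1 = a.2 then 1 else 0)
    (fun a => (h1 a.1 a.2 i0 i0).1) e1
  obtain ⟨C2, R2, c2, r2, b2⟩ := bigO_unif (ι := Fin n × Fin n × Fin n)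
    (F := fun a => Stmt.pd a.2.2 fun x => D.g x a.1 a.2.1)
    (fun a => (h1 a.1 a.2.1 a.2.2 i0).2.1) (add_le_add_left e1 1)
  obtain ⟨C3, R3, c3, r3, b3⟩ := bigO_unif (ι := Fin n × Fin n) (F := fun a x => D.K x a.1 a.2)
    (fun a => (h1 a.1 a.2 i0 i0).2.2.2.1) (add_le_add_left e1 1)
  obtain ⟨C4, R4, c4, r4, b4⟩ := bigO_unif (ι := Fin n) (F := fun i => Stmt.pd i f)
    (fun i => (h2 i i).1) e2
  obtain ⟨C5, R5, c5, r5, b5⟩ := bigO_unif (ι := Fin n × Fin n)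
    (F := fun a => Stmt.pd a.1 (Stmt.pd a.2 f)) (fun a => (h2 a.1 a.2).2) (add_le_add_left e2 1)
  obtain ⟨R6, hR6⟩ := D.dom.2.2.2
  set B := C1 + C2 + C3 + C4 + C5 with hB
  have hB0 : 0 ≤ B := by linarith
  -- the radius beyond which everything is small
  have hlim : Tendsto (fun r : ℝ => B * r ^ (-q)) atTop (𝓝 (B * 0)) :=
    (tendsto_rpow_neg_atTop hqp).const_mul B
  rw [mul_zero] at hlim
  have hsm : (0 : ℝ) < 1 / (64 * n) := by positivity
  obtain ⟨R7, hR7⟩ := eventually_atTop.1 (hlim.eventually (gt_mem_nhds hsm))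
  have hKn : 0 ≤ Kn n := by unfold Kn; positivity
  refine ⟨q, B + 4 * n * B + Kn n * B, R1 + R2 + R3 + R4 + R5 + |R6| + |R7|, hq0,
    by linarith [abs_nonneg R6, abs_nonneg R7], fun y hy => ?_⟩
  have g6 := abs_nonneg R6
  have g7 := abs_nonneg R7
  have hy1 : 1 < ‖y‖ := by linarith
  have hF : 0 < D.F y := hR6 y (show R6 < ‖y‖ by linarith [le_abs_self R6])
  have a1 := b1 y (by linarith)
  have a2 := b2 y (by linarith)
  have a3 := b3 y (by linarith)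
  have a4 := b4 y (by linarith)
  have a5 := b5 y (by linarith)
  have a7 := hR7 ‖y‖ (by linarith [le_abs_self R7])
  have hsmy := hS.smf y hF.le
  have hd : DifferentiableAt ℝ f y := hsmy.differentiableAt (by simp)
  set ρ := ‖y‖ ^ (-q) with hρ
  set σ := ‖y‖ ^ (-(q + 1)) with hσ
  have hρ0 : 0 ≤ ρ := Real.rpow_nonneg (norm_nonneg _) _
  have hσ0 : 0 ≤ σ := Real.rpow_nonneg (norm_nonneg _) _
  have hle : ∀ {c s : ℝ}, c ≤ B → 0 ≤ s → c * s ≤ B * s := fun h hs =>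
    mul_le_mul_of_nonneg_right h hs
  have f1 : ∀ i, |pd i f y| ≤ B * ρ := fun i => by
    rw [← Vale.Agent.P366.Bridge.pd_eq hd]
    exact (a4 i).trans (hle (by linarith) hρ0)
  have f2 : ∀ i j, |pd i (pd j f) y| ≤ B * σ := fun i j => by
    have h := a5 (i, j)
    simp only at h
    rw [KSN.spd2_eq hsmy] at h
    exact h.trans (hle (by linarith) hσ0)
  have f3 : ∀ i j, |D.K y i j| ≤ B * σ := fun i j => (a3 (i, j)).trans (hle (by linarith) hσ0)
  have f4 : ∀ i j, |D.g y i j - kd i j| ≤ B * ρ := fun i j =>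
    (a1 (i, j)).trans (hle (by linarith) hρ0)
  have f5 : ∀ i j k, |pd k (fun z => D.g z i j) y| ≤ B * σ := fun i j k => by
    have h := a2 (i, j, k)
    simp only at h
    rw [Vale.Agent.P366.Bridge.pd_eq (((D.smooth i j).1.differentiable (by simp)) y)] at h
    exact h.trans (hle (by linarith) hσ0)
  have hδ : (n : ℝ) * (B * ρ) ≤ 1 / 64 := by
    have h : (n : ℝ) * (B * ρ) ≤ n * (1 / (64 * n)) :=
      mul_le_mul_of_nonneg_left a7.le (by linarith)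
    have e : (n : ℝ) * (1 / (64 * n)) = 1 / 64 := by field_simp
    linarith
  have hv := vv_le hS hF (δ := B * ρ) (e := B * ρ) (by linarith) f1 f1 f4
  have hv1 : |vv l V (pt (f y) y)| ≤ 1 / 16 := by linarith
  have hK := hS.ks y hF.le
  refine ⟨fun a b => ?_, fun a b c => ?_, fun i => ?_, fun i j => ?_⟩
  · refine (hh_le hK a b).trans (hv.trans ?_)
    have : 2 * (n : ℝ) * (2 * (B * ρ)) = 4 * n * B * ρ := by ring
    rw [this]
    refine mul_le_mul_of_nonneg_right ?_ hρ0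
    have := mul_nonneg hKn hB0
    linarith
  · refine (dh_le hS hF (δ := B * ρ) (e := B * σ) (by linarith) f1 f2 hv1 f3 f5 a b c).trans ?_
    rw [← mul_assoc]
    refine mul_le_mul_of_nonneg_right ?_ hσ0
    have : 0 ≤ 4 * (n : ℝ) * B := by positivity
    linarith
  · refine (f1 i).trans (mul_le_mul_of_nonneg_right ?_ hρ0)
    have h4 : 0 ≤ 4 * (n : ℝ) * B := by positivity
    have := mul_nonneg hKn hB0
    linarith
  · refine (f2 i j).trans (mul_le_mul_of_nonneg_right ?_ hσ0)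
    have h4 : 0 ≤ 4 * (n : ℝ) * B := by positivity
    have := mul_nonneg hKn hB0
    linarith

end Vale.Agent.P366.KSL
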