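import Mathlib

/-! Pointwise bounds on the Kerr-Schild field from those on its restriction to a hypersurface. -/

noncomputable section
namespace Vale.Agent.P366.KSL

open Finset

theorem abs_sum_le' {n : ℕ} {g : Fin n → ℝ} {e : ℝ} (h : ∀ i, |g i| ≤ e) : |∑ i, g i| ≤ n * e := by
  refine (abs_sum_le_sum_abs _ _).trans ?_
  refine (sum_le_sum fun i _ => h i).trans ?_
  simp

theorem abs_mul_le' {a b x y : ℝ} (ha : |a| ≤ x) (hb : |b| ≤ y) : |a * b| ≤ x * y := by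
  rw [abs_mul]
  exact mul_le_mul ha hb (abs_nonneg _) ((abs_nonneg _).trans ha)

/-- If `v w ⊗ w`, `w = u + φ` with a unit vector `u` and a small `φ`, has a small derivative, then
so have `v` and `v u`. -/
theorem alg_bound {n : ℕ} {v dv ε d δ : ℝ} {u du φ dφ : Fin n → ℝ} (hu : ∑ i, u i ^ 2 = 1)
    (hdu : ∑ i, u i * du i = 0) (hδ : (n : ℝ) * δ ≤ 1 / 16) (hφ : ∀ i, |φ i| ≤ δ)
    (hd : ∀ i, |v * dφ i| ≤ d)
    (hP : ∀ i j, |dv * ((u i + φ i) * (u j + φ j)) + v * ((du i + dφ i) * (u j + φ j) +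
      (u i + φ i) * (du j + dφ j))| ≤ ε) :
    |dv| ≤ 50 * (n : ℝ) ^ 3 * (ε + d) ∧ ∀ i, |v * du i| ≤ 50 * (n : ℝ) ^ 3 * (ε + d) := by
  have hn : 0 < n := by
    rcases Nat.eq_zero_or_pos n with h | h
    · subst h; simp at hu
    · exact h
  have hn1 : (1 : ℝ) ≤ n := by exact_mod_cast hn
  set i0 : Fin n := ⟨0, hn⟩
  have hδ0 : 0 ≤ δ := (abs_nonneg _).trans (hφ i0)
  have hδ1 : δ ≤ 1 / 16 := by nlinarith
  have hd0 : 0 ≤ d := (abs_nonneg _).trans (hd i0)
  have hε0 : 0 ≤ ε := (abs_nonneg _).trans (hP i0 i0)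
  have hu1 : ∀ i, |u i| ≤ 1 := by
    intro i
    have h1 : u i ^ 2 ≤ ∑ j, u j ^ 2 :=
      single_le_sum (f := fun j => u j ^ 2) (fun j _ => sq_nonneg _) (mem_univ i)
    rw [hu] at h1
    exact abs_le_one_iff_mul_self_le_one.2 (by nlinarith)
  set w : Fin n → ℝ := fun i => u i + φ i with hw
  have hw2 : ∀ i, |w i| ≤ 2 := fun i => by
    have := abs_add_le (u i) (φ i)
    have h1 := hu1 i
    have h2 := hφ i
    show |u i + φ i| ≤ 2
    linarith
  set W : ℝ := ∑ i, w i ^ 2 with hW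
  have hWe : W = 1 + 2 * (∑ i, u i * φ i) + ∑ i, φ i ^ 2 := by
    rw [hW, ← hu, mul_sum, ← sum_add_distrib, ← sum_add_distrib]
    exact sum_congr rfl fun i _ => by simp only [hw]; ring
  have h1 : |∑ i, u i * φ i| ≤ n * δ := abs_sum_le' fun i => by
    have := abs_mul_le' (hu1 i) (hφ i)
    linarith
  have h2 : |∑ i, φ i ^ 2| ≤ n * (δ * δ) := abs_sum_le' fun i => by
    rw [pow_two]
    exact abs_mul_le' (hφ i) (hφ i)
  have h3 : 0 ≤ ∑ i, φ i ^ 2 := sum_nonneg fun i _ => sq_nonneg _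
  have hWl : 7 / 8 ≤ W := by
    rw [hWe]
    have := (abs_le.1 h1).1
    linarith
  have hWu : W ≤ 2 := by
    rw [hWe]
    have h4 := (abs_le.1 h1).2
    have h5 := (abs_le.1 h2).2
    nlinarith
  -- the contractions
  set X : Fin n → ℝ := fun i => v * du i with hX
  set p : Fin n → ℝ := fun i => v * dφ i with hp
  set P : Fin n → Fin n → ℝ := fun i j => dv * (w i * w j) + v * ((du i + dφ i) * w j +
      w i * (du j + dφ j)) with hPd
  have hP' : ∀ i j, |P i j| ≤ ε := hP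
  have hPX : ∀ i j, P i j = dv * (w i * w j) + (X i + p i) * w j + w i * (X j + p j) :=
    fun i j => by simp only [hPd, hX, hp]; ring
  set σ : ℝ := ∑ j, (X j + p j) * w j with hσ
  set S : ℝ := ∑ j, |X j| with hS
  have hS0 : 0 ≤ S := sum_nonneg fun i _ => abs_nonneg _
  have hXu : ∑ j, X j * u j = 0 := by
    have : ∑ j, X j * u j = v * ∑ j, u j * du j := by
      rw [mul_sum]; exact sum_congr rfl fun j _ => by simp only [hX]; ring
    rw [this, hdu, mul_zero]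
  have hσe : σ = (∑ j, X j * φ j) + ∑ j, p j * w j := by
    have : σ = (∑ j, X j * u j) + (∑ j, X j * φ j) + ∑ j, p j * w j := by
      rw [hσ, ← sum_add_distrib, ← sum_add_distrib]
      exact sum_congr rfl fun j _ => by simp only [hw]; ring
    rw [this, hXu, zero_add]
  have hσb : |σ| ≤ δ * S + 2 * n * d := by
    rw [hσe]
    refine (abs_add_le _ _).trans (add_le_add ?_ ?_)
    · refine (abs_sum_le_sum_abs _ _).trans ?_
      rw [hS, mul_sum]
      refine sum_le_sum fun j _ => ?_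
      rw [abs_mul, mul_comm]
      exact mul_le_mul_of_nonneg_right (hφ j) (abs_nonneg _)
    · refine (abs_sum_le' (e := d * 2) fun j => abs_mul_le' (hd j) (hw2 j)).trans (le_of_eq ?_)
      ring
  set Q : Fin n → ℝ := fun i => ∑ j, P i j * w j with hQ
  have hQb : ∀ i, |Q i| ≤ 2 * n * ε := fun i => by
    refine (abs_sum_le' (e := ε * 2) fun j => abs_mul_le' (hP' i j) (hw2 j)).trans (le_of_eq ?_)
    ring
  have hQe : ∀ i, Q i = dv * w i * W + (X i + p i) * W + w i * σ := fun i => by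
    rw [hQ, hW, hσ, mul_sum, mul_sum, mul_sum, ← sum_add_distrib, ← sum_add_distrib]
    exact sum_congr rfl fun j _ => by simp only [hPX]; ring
  set B : ℝ := ∑ i, Q i * w i with hB
  have hBb : |B| ≤ 4 * n ^ 2 * ε := by
    refine (abs_sum_le' (e := 2 * n * ε * 2) fun j => abs_mul_le' (hQb j) (hw2 j)).trans
      (le_of_eq ?_)
    ring
  have hBe : B = dv * W ^ 2 + 2 * W * σ := by
    have : B = (dv * W + σ) * W + W * σ := by
      rw [hB]
      simp only [hQe]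
      have e1 : ∀ i, (dv * w i * W + (X i + p i) * W + w i * σ) * w i =
          (dv * W + σ) * w i ^ 2 + W * ((X i + p i) * w i) := fun i => by ring
      simp only [e1]
      rw [sum_add_distrib, ← mul_sum, ← mul_sum]
    rw [this]; ring
  have hkey : ∀ i, W ^ 2 * (X i + p i) = W * Q i - w i * (B - W * σ) := fun i => by
    rw [hQe, hBe]; ring
  have hW0 : 0 ≤ W := by linarith
  have hWs : 3 / 4 ≤ W ^ 2 := by nlinarith
  have hWσ : |W * σ| ≤ 2 * (δ * S + 2 * n * d) :=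
    abs_mul_le' (by rw [abs_of_nonneg hW0]; exact hWu) hσb
  have hXi : ∀ i, |X i| ≤ d + 4 / 3 * (4 * n * ε + 8 * n ^ 2 * ε + 4 * δ * S + 8 * n * d) := by
    intro i
    have e1 : |W ^ 2 * (X i + p i)| ≤ 2 * (2 * n * ε) + 2 * (4 * n ^ 2 * ε +
        2 * (δ * S + 2 * n * d)) := by
      rw [hkey]
      refine (abs_sub _ _).trans (add_le_add ?_ ?_)
      · exact abs_mul_le' (by rw [abs_of_nonneg hW0]; exact hWu) (hQb i)
      · exact abs_mul_le' (hw2 i) ((abs_sub _ _).trans (add_le_add hBb hWσ))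
    rw [abs_mul, abs_of_nonneg (by positivity : (0 : ℝ) ≤ W ^ 2)] at e1
    have e2 : 3 / 4 * |X i + p i| ≤ W ^ 2 * |X i + p i| :=
      mul_le_mul_of_nonneg_right hWs (abs_nonneg _)
    have e3 : |X i| ≤ |X i + p i| + |p i| := by
      have h := abs_sub (X i + p i) (p i)
      rwa [add_sub_cancel_right] at h
    have e4 : |p i| ≤ d := hd i
    linarith
  have hn2 : (n : ℝ) ≤ n ^ 2 := by nlinarith
  have hn3 : (n : ℝ) ^ 2 ≤ n ^ 3 := by
    have h : (n : ℝ) ^ 2 * 1 ≤ n ^ 2 * n := mul_le_mul_of_nonneg_left hn1 (sq_nonneg _)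
    linarith [pow_succ (n : ℝ) 2]
  have f1 : (n : ℝ) * d ≤ n ^ 3 * d := mul_le_mul_of_nonneg_right (hn2.trans hn3) hd0
  have f2 : (n : ℝ) ^ 2 * d ≤ n ^ 3 * d := mul_le_mul_of_nonneg_right hn3 hd0
  have f3 : (n : ℝ) ^ 2 * ε ≤ n ^ 3 * ε := mul_le_mul_of_nonneg_right hn3 hε0
  have f4 : 0 ≤ (n : ℝ) ^ 3 * ε := by positivity
  have f5 : 0 ≤ (n : ℝ) ^ 3 * d := by positivity
  have f6 : 50 * (n : ℝ) ^ 3 * (ε + d) = 50 * (n ^ 3 * ε) + 50 * (n ^ 3 * d) := by ring
  rw [f6]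
  have hSb0 : S ≤ 24 * (n ^ 3 * ε) + 18 * (n ^ 3 * d) := by
    have e1 : S ≤ n * (d + 4 / 3 * (4 * n * ε + 8 * n ^ 2 * ε + 4 * δ * S + 8 * n * d)) := by
      have e0 := sum_le_sum (s := univ) fun i _ => hXi i
      rw [sum_const, card_univ, Fintype.card_fin, nsmul_eq_mul] at e0
      exact e0
    have e2 : (n : ℝ) * δ * S ≤ 1 / 16 * S := mul_le_mul_of_nonneg_right hδ hS0
    have e3 : n * (d + 4 / 3 * (4 * n * ε + 8 * n ^ 2 * ε + 4 * δ * S + 8 * n * d)) =
        n * d + 16 / 3 * (n ^ 2 * ε) + 32 / 3 * (n ^ 3 * ε) + 16 / 3 * (n * δ * S) +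
          32 / 3 * (n ^ 2 * d) := by ring
    rw [e3] at e1
    linarith only [e1, e2, f1, f2, f3, f4, f5]
  refine ⟨?_, fun i => ?_⟩
  · have e1 : dv * W ^ 2 = B - 2 * (W * σ) := by rw [hBe]; ring
    have e2 : |dv * W ^ 2| ≤ 4 * n ^ 2 * ε + 2 * (2 * (δ * S + 2 * n * d)) := by
      rw [e1]
      refine (abs_sub _ _).trans (add_le_add hBb ?_)
      exact abs_mul_le' (by norm_num) hWσ
    rw [abs_mul, abs_of_nonneg (by positivity : (0 : ℝ) ≤ W ^ 2)] at e2
    have e3 : 3 / 4 * |dv| ≤ |dv| * W ^ 2 := by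
      rw [mul_comm]
      exact mul_le_mul_of_nonneg_left hWs (abs_nonneg _)
    have e4 : δ * S ≤ 1 / 16 * S := mul_le_mul_of_nonneg_right hδ1 hS0
    have e5 : 4 * (n : ℝ) ^ 2 * ε + 2 * (2 * (δ * S + 2 * n * d)) =
        4 * (n ^ 2 * ε) + 4 * (δ * S) + 8 * (n * d) := by ring
    rw [e5] at e2
    linarith only [e2, e3, e4, f1, f3, hSb0, f4, f5]
  · have e1 : |X i| ≤ S := single_le_sum (f := fun j => |X j|) (fun j _ => abs_nonneg _) (mem_univ i)
    have e2 : |v * du i| = |X i| := rfl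
    rw [e2]
    linarith only [e1, hSb0, f4, f5]

end Vale.Agent.P366.KSL
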