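import Vale.Agent.P366.H208.L.Int
import Vale.Agent.P366.H208.L.AFa
import Vale.Agent.P366.H896.W.Gr
import Vale.Agent.P366.H296.L.V9

/-! The Kerr-Schild field in terms of a scalar and a unit vector; derivatives along a slice. -/

open MeasureTheory Metric Filter Topology Set
open scoped ContDiff ENNReal

noncomputable section
namespace Vale.Agent.P366.KSL

open Vale.Agent.P366 (pd E)
open Vale.Agent.P366.H353.N
open Vale.Agent.P366.Kerr (NullCone Psi pt sp indG indK sgn ksL ein IsKS IsGraph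
  IsSliceL HasDEC tng con)
open Vale.Agent.P366.KSN (Y dts sg)
open Vale.Agent.P366.KSN.X5 (DP)

variable {n : ℕ} {C : NullCone n} {l : Fin (n + 1) → E (n + 1) → ℝ} {V : E (n + 1) → ℝ}
  {f : E n → ℝ} {D : Stmt.Exterior n} {p : E (n + 1)} {x y : E n}

/-- `v = V l_0 ^ 2` -/
def vv (l : Fin (n + 1) → E (n + 1) → ℝ) (V : E (n + 1) → ℝ) (p : E (n + 1)) : ℝ :=
  V p * l 0 p ^ 2

/-- `l_a / l_0` -/
def uh (l : Fin (n + 1) → E (n + 1) → ℝ) (a : Fin (n + 1)) (p : E (n + 1)) : ℝ := l a p / l 0 p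

theorem uh_cd (hK : IsKS l V p) (a : Fin (n + 1)) : ContDiffAt ℝ ∞ (uh l a) p :=
  (hK.sml a).div (hK.sml 0) hK.fut.ne'

theorem vv_cd (hK : IsKS l V p) : ContDiffAt ℝ ∞ (vv l V) p := hK.smV.mul ((hK.sml 0).pow 2)

theorem l0_ev (hK : IsKS l V p) : ∀ᶠ q in 𝓝 p, 0 < l 0 q :=
  (hK.sml 0).continuousAt.eventually (lt_mem_nhds hK.fut)

theorem hh_ev (hK : IsKS l V p) (a b : Fin (n + 1)) :
    hh l V a b =ᶠ[𝓝 p] fun q => vv l V q * (uh l a q * uh l b q) := by
  filter_upwards [l0_ev hK] with q hq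
  unfold hh vv uh
  have := hq.ne'
  field_simp

theorem uh_zero_ev (hK : IsKS l V p) : uh l 0 =ᶠ[𝓝 p] fun _ => 1 := by
  filter_upwards [l0_ev hK] with q hq
  exact div_self hq.ne'

theorem uh_zero (hK : IsKS l V p) : uh l 0 p = 1 := div_self hK.fut.ne'

theorem uh_sq_ev (hK : IsKS l V p) : ∀ᶠ q in 𝓝 p, ∑ i : Fin n, uh l i.succ q ^ 2 = 1 := by
  filter_upwards [l0_ev hK, hK.null] with q hq hn
  rw [Fin.sum_univ_succ] at hn
  have e1 : (sgn (0 : Fin (n + 1)) : ℝ) = -1 := by simp [sgn]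
  have e2 : ∀ i : Fin n, (sgn i.succ : ℝ) = 1 := fun i => by simp [sgn, Fin.succ_ne_zero]
  simp only [e1, e2, one_mul] at hn
  have e3 : ∑ i : Fin n, l i.succ q ^ 2 = l 0 q ^ 2 := by linarith
  have e4 : ∑ i : Fin n, uh l i.succ q ^ 2 = (∑ i : Fin n, l i.succ q ^ 2) / l 0 q ^ 2 := by
    rw [Finset.sum_div]
    exact Finset.sum_congr rfl fun i _ => by unfold uh; rw [div_pow]
  rw [e4, e3, div_self (pow_ne_zero 2 hq.ne')]

theorem pd_uh_zero (hK : IsKS l V p) (c : Fin (n + 1)) : pd c (uh l 0) p = 0 := by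
  rw [Vale.Agent.P366.pd_congr (uh_zero_ev hK) c, Vale.Agent.P366.pd_const]

theorem uh_orth (hK : IsKS l V p) (c : Fin (n + 1)) :
    ∑ i : Fin n, uh l i.succ p * pd c (uh l i.succ) p = 0 := by
  have hd : ∀ i : Fin n, DP c (uh l i.succ) (pd c (uh l i.succ) p) p := fun i =>
    DP.of ((uh_cd hK i.succ).differentiableAt (by simp))
  have h1 : DP c (fun q => ∑ i : Fin n, uh l i.succ q * uh l i.succ q)
      (∑ i : Fin n, (pd c (uh l i.succ) p * uh l i.succ p +
        uh l i.succ p * pd c (uh l i.succ) p)) p := DP.sum _ fun i => (hd i).mul (hd i)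
  have h2 : (fun q => ∑ i : Fin n, uh l i.succ q * uh l i.succ q) =ᶠ[𝓝 p] fun _ => 1 := by
    filter_upwards [uh_sq_ev hK] with q hq
    rw [← hq]
    exact Finset.sum_congr rfl fun i _ => by ring
  have h3 := h1.2
  rw [Vale.Agent.P366.pd_congr h2 c, Vale.Agent.P366.pd_const] at h3
  have h4 : ∑ i : Fin n, (pd c (uh l i.succ) p * uh l i.succ p +
      uh l i.succ p * pd c (uh l i.succ) p) =
      2 * ∑ i : Fin n, uh l i.succ p * pd c (uh l i.succ) p := by
    rw [Finset.mul_sum]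
    exact Finset.sum_congr rfl fun i _ => by ring
  rw [h4] at h3
  linarith

theorem dp_hh (hK : IsKS l V p) (a b c : Fin (n + 1)) : DP c (hh l V a b)
    (pd c (vv l V) p * (uh l a p * uh l b p) +
      vv l V p * (pd c (uh l a) p * uh l b p + uh l a p * pd c (uh l b) p)) p := by
  have hd : ∀ a, DP c (uh l a) (pd c (uh l a) p) p := fun i =>
    DP.of ((uh_cd hK i).differentiableAt (by simp))
  have hv : DP c (vv l V) (pd c (vv l V) p) p := DP.of ((vv_cd hK).differentiableAt (by simp))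
  have h := hv.mul ((hd a).mul (hd b))
  exact ⟨h.1.congr_of_eventuallyEq (hh_ev hK a b),
    by rw [Vale.Agent.P366.pd_congr (hh_ev hK a b) c]; exact h.2⟩

theorem hh_eq (hK : IsKS l V p) (a b : Fin (n + 1)) :
    hh l V a b p = vv l V p * (uh l a p * uh l b p) := (hh_ev hK a b).eq_of_nhds

theorem uh_sq (hK : IsKS l V p) : ∑ i : Fin n, uh l i.succ p ^ 2 = 1 := (uh_sq_ev hK).self_of_nhds

theorem uh_le (hK : IsKS l V p) (a : Fin (n + 1)) : |uh l a p| ≤ 1 := by
  refine Fin.cases ?_ (fun i => ?_) a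
  · rw [uh_zero hK, abs_one]
  · have h1 : uh l i.succ p ^ 2 ≤ ∑ j : Fin n, uh l j.succ p ^ 2 :=
      Finset.single_le_sum (f := fun j : Fin n => uh l j.succ p ^ 2) (fun j _ => sq_nonneg _)
        (Finset.mem_univ i)
    rw [uh_sq hK] at h1
    exact abs_le_one_iff_mul_self_le_one.2 (by nlinarith)

/-- the field and its derivatives are controlled by `v`, `dv` and `v du` -/
theorem hh_le (hK : IsKS l V p) (a b : Fin (n + 1)) : |hh l V a b p| ≤ |vv l V p| := by
  rw [hh_eq hK, abs_mul]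
  have h1 := abs_mul_le' (uh_le hK a) (uh_le hK b)
  nlinarith [abs_nonneg (vv l V p), abs_nonneg (uh l a p * uh l b p)]

/-- A derivation: `dv`, `du_i` are the derivatives of `v`, `u_i`; the derivative of `h_ab`. -/
theorem der_le {v dv e : ℝ} {U dU : Fin (n + 1) → ℝ} (hU : ∀ a, |U a| ≤ 1)
    (h0 : dU 0 = 0) (hv : |dv| ≤ e) (hu : ∀ i : Fin n, |v * dU i.succ| ≤ e) (a b : Fin (n + 1)) :
    |dv * (U a * U b) + v * (dU a * U b + U a * dU b)| ≤ 3 * e := by
  have he : 0 ≤ e := (abs_nonneg _).trans hv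
  have h1 : ∀ a, |v * dU a| ≤ e := by
    intro a
    refine Fin.cases ?_ (fun i => hu i) a
    rw [h0, mul_zero, abs_zero]; exact he
  have e1 : dv * (U a * U b) + v * (dU a * U b + U a * dU b) =
      dv * (U a * U b) + (v * dU a * U b + v * dU b * U a) := by ring
  rw [e1]
  have h2 : |dv * (U a * U b)| ≤ e * (1 * 1) := abs_mul_le' hv (abs_mul_le' (hU a) (hU b))
  have h3 : |v * dU a * U b| ≤ e * 1 := abs_mul_le' (h1 a) (hU b)
  have h4 : |v * dU b * U a| ≤ e * 1 := abs_mul_le' (h1 b) (hU a)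
  have h5 := abs_add_le (dv * (U a * U b)) (v * dU a * U b + v * dU b * U a)
  have h6 := abs_add_le (v * dU a * U b) (v * dU b * U a)
  linarith

end Vale.Agent.P366.KSL
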