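import Vale.Agent.P366.H208.L.AFb

/-! Tangential derivatives of the Kerr-Schild field from the induced metric. -/

open MeasureTheory Metric Filter Topology Set
open scoped ContDiff ENNReal

noncomputable section
namespace Vale.Agent.P366.KSL

open Vale.Agent.P366 (pd E)
open Vale.Agent.P366.H353.N
open Vale.Agent.P366.Kerr (NullCone Psi pt sp indG indK sgn ksL ein IsKS IsGraph
  IsSliceL HasDEC tng con lapse)
open Vale.Agent.P366.KSN (Y dts sg)
open Vale.Agent.P366.KSN.X5 (DP cd_pd)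

variable {n : ℕ} {C : NullCone n} {l : Fin (n + 1) → E (n + 1) → ℝ} {V : E (n + 1) → ℝ}
  {f : E n → ℝ} {D : Stmt.Exterior n} {p : E (n + 1)} {x y : E n}

/-- the derivative along the graph of `f` -/
def Dt (f : E n → ℝ) (y : E n) (k : Fin n) (A : E (n + 1) → ℝ) : ℝ :=
  pd k.succ A (pt (f y) y) + pd k f y * pd 0 A (pt (f y) y)

theorem F_ev (hy : 0 < D.F y) : ∀ᶠ z in 𝓝 y, 0 < D.F z :=
  (D.dom.1.continuous.continuousAt.eventually (lt_mem_nhds hy))

theorem g_ev (hS : IsSliceL C l V f D) (hy : 0 < D.F y) (i j : Fin n) :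
    (fun z => D.g z i j) =ᶠ[𝓝 y] fun z => (kd i j - pd i f z * pd j f z) +
      vv l V (pt (f z) z) * ((pd i f z + uh l i.succ (pt (f z) z)) *
        (pd j f z + uh l j.succ (pt (f z) z))) := by
  filter_upwards [F_ev hy] with z hz
  have hd : DifferentiableAt ℝ f z := (hS.smf z hz.le).differentiableAt (by simp)
  have h0 := (hS.ks z hz.le).fut.ne'
  rw [hS.met z hz.le i j, indG_ksL, Vale.Agent.P366.Bridge.pd_eq hd,
    Vale.Agent.P366.Bridge.pd_eq hd]
  unfold vv uh
  field_simp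

theorem dp_g (hS : IsSliceL C l V f D) (hy : 0 < D.F y) (i j k : Fin n) :
    pd k (fun z => D.g z i j) y = -(pd k (pd i f) y * pd j f y + pd i f y * pd k (pd j f) y) +
      (Dt f y k (vv l V) * ((uh l i.succ (pt (f y) y) + pd i f y) *
          (uh l j.succ (pt (f y) y) + pd j f y)) +
        vv l V (pt (f y) y) * ((Dt f y k (uh l i.succ) + pd k (pd i f) y) *
          (uh l j.succ (pt (f y) y) + pd j f y) + (uh l i.succ (pt (f y) y) + pd i f y) *
          (Dt f y k (uh l j.succ) + pd k (pd j f) y))) := by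
  have hsm := hS.smf y hy.le
  have hd : DifferentiableAt ℝ f y := hsm.differentiableAt (by simp)
  have hK := hS.ks y hy.le
  have h1 : ∀ i, DP k (pd i f) (pd k (pd i f) y) y := fun i =>
    DP.of ((cd_pd hsm i).differentiableAt (by simp))
  have h2 : ∀ a, DP k (fun z => uh l a (pt (f z) z)) (Dt f y k (uh l a)) y := fun a =>
    KSN.Gr.dp_gr ((uh_cd hK a).differentiableAt (by simp)) hd k
  have h3 : DP k (fun z => vv l V (pt (f z) z)) (Dt f y k (vv l V)) y :=
    KSN.Gr.dp_gr ((vv_cd hK).differentiableAt (by simp)) hd k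
  have h4 := ((DP.const (k := k) (y := y) (kd i j)).sub ((h1 i).mul (h1 j))).add
    (h3.mul (((h1 i).add (h2 i.succ)).mul ((h1 j).add (h2 j.succ))))
  rw [Vale.Agent.P366.pd_congr (g_ev hS hy i j) k, h4.2]
  ring

theorem Dt_orth (hK : IsKS l V (pt (f y) y)) (k : Fin n) :
    ∑ i : Fin n, uh l i.succ (pt (f y) y) * Dt f y k (uh l i.succ) = 0 := by
  unfold Dt
  have h1 := uh_orth hK k.succ
  have h2 := uh_orth hK 0
  have e : ∀ i : Fin n, uh l i.succ (pt (f y) y) * (pd k.succ (uh l i.succ) (pt (f y) y) +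
      pd k f y * pd 0 (uh l i.succ) (pt (f y) y)) =
      uh l i.succ (pt (f y) y) * pd k.succ (uh l i.succ) (pt (f y) y) +
      pd k f y * (uh l i.succ (pt (f y) y) * pd 0 (uh l i.succ) (pt (f y) y)) := fun i => by ring
  simp only [e, Finset.sum_add_distrib, ← Finset.mul_sum]
  rw [h1, h2]; ring

theorem Dt_hh (hK : IsKS l V (pt (f y) y)) (a b : Fin (n + 1)) (k : Fin n) :
    Dt f y k (hh l V a b) = Dt f y k (vv l V) * (uh l a (pt (f y) y) * uh l b (pt (f y) y)) +
      vv l V (pt (f y) y) * (Dt f y k (uh l a) * uh l b (pt (f y) y) +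
        uh l a (pt (f y) y) * Dt f y k (uh l b)) := by
  unfold Dt
  rw [(dp_hh hK a b k.succ).2, (dp_hh hK a b 0).2]
  ring

/-- **the undifferentiated field** -/
theorem vv_le (hS : IsSliceL C l V f D) (hy : 0 < D.F y) {e δ : ℝ} (hδ : (n : ℝ) * δ ≤ 1 / 16)
    (hf : ∀ i, |pd i f y| ≤ δ) (hfe : ∀ i, |pd i f y| ≤ e)
    (hg : ∀ i j, |D.g y i j - kd i j| ≤ e) : |vv l V (pt (f y) y)| ≤ 2 * n * (2 * e) := by
  have hK := hS.ks y hy.le
  set p := pt (f y) y with hp
  set u : Fin n → ℝ := fun i => uh l i.succ p with hu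
  set φ : Fin n → ℝ := fun i => pd i f y with hφ
  have hu1 : ∑ i, u i ^ 2 = 1 := uh_sq hK
  have hn : 0 < n := by
    rcases Nat.eq_zero_or_pos n with h | h
    · subst h; simp at hu1
    · exact h
  have hn1 : (1 : ℝ) ≤ n := by exact_mod_cast hn
  have hδ0 : 0 ≤ δ := (abs_nonneg _).trans (hf ⟨0, hn⟩)
  have hδ1 : δ ≤ 1 / 16 := by nlinarith
  have he0 : 0 ≤ e := (abs_nonneg _).trans (hfe ⟨0, hn⟩)
  have hu2 : ∀ i, |u i| ≤ 1 := fun i => uh_le hK i.succ
  have hW : 7 / 8 ≤ ∑ i, (φ i + u i) ^ 2 := by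
    have e1 : ∑ i, (φ i + u i) ^ 2 = 1 + 2 * (∑ i, u i * φ i) + ∑ i, φ i ^ 2 := by
      rw [← hu1, Finset.mul_sum, ← Finset.sum_add_distrib, ← Finset.sum_add_distrib]
      exact Finset.sum_congr rfl fun i _ => by ring
    have h1 : |∑ i, u i * φ i| ≤ n * δ := abs_sum_le' fun i => by
      have := abs_mul_le' (hu2 i) (hf i)
      linarith
    have h3 : 0 ≤ ∑ i, φ i ^ 2 := Finset.sum_nonneg fun i _ => sq_nonneg _
    rw [e1]
    have := (abs_le.1 h1).1
    linarith
  have h1 : ∀ i, vv l V p * (φ i + u i) ^ 2 = (D.g y i i - kd i i) + φ i * φ i := fun i => by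
    have h2 := (g_ev hS hy i i).eq_of_nhds
    rw [h2]
    ring
  have h2 : vv l V p * ∑ i, (φ i + u i) ^ 2 = ∑ i, ((D.g y i i - kd i i) + φ i * φ i) := by
    rw [Finset.mul_sum]
    exact Finset.sum_congr rfl fun i _ => h1 i
  have h3 : |∑ i, ((D.g y i i - kd i i) + φ i * φ i)| ≤ n * (2 * e) := abs_sum_le' fun i => by
    have h4 : |φ i * φ i| ≤ e * 1 := abs_mul_le' (hfe i) ((hf i).trans (by linarith))
    have h5 := abs_add_le (D.g y i i - kd i i) (φ i * φ i)
    have h6 := hg i i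
    linarith
  rw [← h2, abs_mul, abs_of_nonneg (by linarith : (0 : ℝ) ≤ ∑ i, (φ i + u i) ^ 2)] at h3
  nlinarith [abs_nonneg (vv l V p)]

/-- **tangential derivatives** -/
theorem Dt_le (hS : IsSliceL C l V f D) (hy : 0 < D.F y) {e δ : ℝ} (hδ : (n : ℝ) * δ ≤ 1 / 16)
    (hf : ∀ i, |pd i f y| ≤ δ) (hff : ∀ i j, |pd i (pd j f) y| ≤ e)
    (hv : |vv l V (pt (f y) y)| ≤ 1) (hg : ∀ i j k, |pd k (fun z => D.g z i j) y| ≤ e)
    (k : Fin n) :
    |Dt f y k (vv l V)| ≤ 50 * (n : ℝ) ^ 3 * (4 * e) ∧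
    ∀ i : Fin n, |vv l V (pt (f y) y) * Dt f y k (uh l i.succ)| ≤ 50 * (n : ℝ) ^ 3 * (4 * e) := by
  have hK := hS.ks y hy.le
  have hu1 : ∑ i : Fin n, uh l i.succ (pt (f y) y) ^ 2 = 1 := uh_sq hK
  have hn : 0 < n := by
    rcases Nat.eq_zero_or_pos n with h | h
    · subst h; simp at hu1
    · exact h
  have hn1 : (1 : ℝ) ≤ n := by exact_mod_cast hn
  have hδ0 : 0 ≤ δ := (abs_nonneg _).trans (hf ⟨0, hn⟩)
  have hδ1 : δ ≤ 1 := by nlinarith
  have he0 : 0 ≤ e := (abs_nonneg _).trans (hff ⟨0, hn⟩ ⟨0, hn⟩)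
  have h := alg_bound (v := vv l V (pt (f y) y)) (dv := Dt f y k (vv l V)) (ε := 3 * e) (d := e)
    (u := fun i => uh l i.succ (pt (f y) y)) (du := fun i => Dt f y k (uh l i.succ))
    (φ := fun i => pd i f y) (dφ := fun i => pd k (pd i f) y) hu1 (Dt_orth hK k) hδ hf
    (fun i => by
      have := abs_mul_le' hv (hff k i)
      linarith)
    (fun i j => by
      have h1 := dp_g hS hy i j k
      have h2 : Dt f y k (vv l V) * ((uh l i.succ (pt (f y) y) + pd i f y) *
          (uh l j.succ (pt (f y) y) + pd j f y)) +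
        vv l V (pt (f y) y) * ((Dt f y k (uh l i.succ) + pd k (pd i f) y) *
          (uh l j.succ (pt (f y) y) + pd j f y) + (uh l i.succ (pt (f y) y) + pd i f y) *
          (Dt f y k (uh l j.succ) + pd k (pd j f) y)) = pd k (fun z => D.g z i j) y +
          (pd k (pd i f) y * pd j f y + pd i f y * pd k (pd j f) y) := by linarith
      show |Dt f y k (vv l V) * ((uh l i.succ (pt (f y) y) + pd i f y) *
          (uh l j.succ (pt (f y) y) + pd j f y)) +
        vv l V (pt (f y) y) * ((Dt f y k (uh l i.succ) + pd k (pd i f) y) *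
          (uh l j.succ (pt (f y) y) + pd j f y) + (uh l i.succ (pt (f y) y) + pd i f y) *
          (Dt f y k (uh l j.succ) + pd k (pd j f) y))| ≤ 3 * e
      rw [h2]
      have a1 := abs_add_le (pd k (fun z => D.g z i j) y)
        (pd k (pd i f) y * pd j f y + pd i f y * pd k (pd j f) y)
      have a2 := abs_add_le (pd k (pd i f) y * pd j f y) (pd i f y * pd k (pd j f) y)
      have a3 : |pd k (pd i f) y * pd j f y| ≤ e * 1 := abs_mul_le' (hff k i) ((hf j).trans hδ1)
      have a4 : |pd i f y * pd k (pd j f) y| ≤ 1 * e := abs_mul_le' ((hf i).trans hδ1) (hff k j)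
      have a5 := hg i j k
      linarith)
  have e1 : 3 * e + e = 4 * e := by ring
  rw [e1] at h
  exact h

end Vale.Agent.P366.KSL
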