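import Vale.Agent.P366.H208.L.AFc
import Vale.Agent.P366.H296.L.Tau

/-! The second fundamental form of a slice of a Kerr-Schild spacetime and the normal derivative of
the Kerr-Schild field. -/

open MeasureTheory Metric Filter Topology Set
open scoped ContDiff ENNReal

noncomputable section
namespace Vale.Agent.P366.KSL

open Vale.Agent.P366 (pd E)
open Vale.Agent.P366.H353.N
open Vale.Agent.P366.Kerr (NullCone Psi pt sp indG indK sgn ksL ein IsKS IsGraph
  IsSliceL HasDEC tng con lapse)
open Vale.Agent.P366.KSN (Y dts sg)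
open Vale.Agent.P366.KSN.X5 (DP cd_pd)

variable {n : ℕ} {C : NullCone n} {l : Fin (n + 1) → E (n + 1) → ℝ} {V : E (n + 1) → ℝ}
  {f : E n → ℝ} {D : Stmt.Exterior n} {p : E (n + 1)} {x y : E n}

theorem sgn_sq (a : Fin (n + 1)) : (sgn a : ℝ) * sgn a = 1 := by
  unfold sgn; split_ifs <;> norm_num

theorem sgn_zero : (sgn (0 : Fin (n + 1)) : ℝ) = -1 := by simp [sgn]

theorem sgn_succ (i : Fin n) : (sgn i.succ : ℝ) = 1 := by simp [sgn, Fin.succ_ne_zero]

theorem up_null (hn : ∑ a, sgn a * l a p ^ 2 = 0) (a b : Fin (n + 1)) :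
    Stmt.up (ksL l V) a b p = kd a b * sgn a - V p * (sgn a * l a p) * (sgn b * l b p) := by
  have h : Stmt.mat (ksL l V) p * (Matrix.of fun a b =>
      kd a b * sgn a - V p * (sgn a * l a p) * (sgn b * l b p)) = 1 := by
    ext a b
    rw [Matrix.mul_apply]
    have e1 : ∀ c, Stmt.mat (ksL l V) p a c * (Matrix.of fun a b =>
        kd a b * sgn a - V p * (sgn a * l a p) * (sgn b * l b p)) c b =
        kd a c * (sgn a * (kd c b * sgn c)) - kd a c * (sgn a * (V p * (sgn c * l c p) *
          (sgn b * l b p))) + kd c b * (V p * l a p * l c p * sgn c) -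
          V p * l a p * (V p * (sgn b * l b p)) * (sgn c * l c p ^ 2) := by
      intro c
      show ((if a = c then sgn a else 0) + V p * l a p * l c p) * _ = _
      rw [Matrix.of_apply]
      unfold kd
      split_ifs with h1 h2 h3 <;> ring
    simp only [e1, Finset.sum_sub_distrib, Finset.sum_add_distrib]
    rw [← Finset.mul_sum, hn, mul_zero, sub_zero]
    rw [KSN.sum_kd_mul a, KSN.sum_kd_mul a]
    have e2 : ∑ c, kd c b * (V p * l a p * l c p * sgn c) = V p * l a p * l b p * sgn b := by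
      rw [← KSN.sum_kd_mul b (fun c => V p * l a p * l c p * sgn c)]
      exact Finset.sum_congr rfl fun c _ => by rw [KSN.kd_comm]
    rw [e2]
    have e3 := sgn_sq a
    rw [Matrix.one_apply]
    unfold kd
    split_ifs with h
    · subst h
      linear_combination (1 - V p * l a p * l a p * sgn a) * e3
    · linear_combination (- V p * l a p * l b p * sgn b) * e3
  unfold Stmt.up
  rw [Matrix.inv_eq_right_inv h]
  rfl

/-- `N^c`, up to the lapse the unit normal -/
def Nn (l : Fin (n + 1) → E (n + 1) → ℝ) (V : E (n + 1) → ℝ) (f : E n → ℝ) (y : E n)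
    (c : Fin (n + 1)) : ℝ := ∑ a, con f y a * Stmt.up (ksL l V) a c (pt (f y) y)

/-- `s = 1 + u . ∇f` -/
def ss (l : Fin (n + 1) → E (n + 1) → ℝ) (f : E n → ℝ) (y : E n) : ℝ :=
  1 + ∑ i : Fin n, pd i f y * uh l i.succ (pt (f y) y)

/-- `β = 1 - |∇f|² + v s²` -/
def bb (l : Fin (n + 1) → E (n + 1) → ℝ) (V : E (n + 1) → ℝ) (f : E n → ℝ) (y : E n) : ℝ :=
  1 - ∑ i, pd i f y ^ 2 + vv l V (pt (f y) y) * ss l f y ^ 2

theorem con_zero (f : E n → ℝ) (y : E n) : con f y 0 = 1 := rfl

theorem con_succ (hd : DifferentiableAt ℝ f y) (i : Fin n) : con f y i.succ = - pd i f y := by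
  show - Stmt.pd i f y = _
  rw [Vale.Agent.P366.Bridge.pd_eq hd]

theorem Nn_eq (hK : IsKS l V (pt (f y) y)) (hd : DifferentiableAt ℝ f y) (c : Fin (n + 1)) :
    Nn l V f y c = con f y c * sgn c + V (pt (f y) y) * l 0 (pt (f y) y) * ss l f y *
      (sgn c * l c (pt (f y) y)) := by
  unfold Nn
  have hn := hK.null.self_of_nhds
  simp only [up_null hn, mul_sub, Finset.sum_sub_distrib]
  have e1 : ∑ a, con f y a * (kd a c * sgn a) = con f y c * sgn c := by
    rw [← KSN.sum_kd_mul c (fun a => con f y a * sgn a)]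
    exact Finset.sum_congr rfl fun a _ => by rw [KSN.kd_comm]; ring
  have e2 : ∑ a, con f y a * (V (pt (f y) y) * (sgn a * l a (pt (f y) y)) *
      (sgn c * l c (pt (f y) y))) = (∑ a, con f y a * (sgn a * l a (pt (f y) y))) *
      (V (pt (f y) y) * (sgn c * l c (pt (f y) y))) := by
    rw [Finset.sum_mul]
    exact Finset.sum_congr rfl fun a _ => by ring
  have e3 : ∑ a, con f y a * (sgn a * l a (pt (f y) y)) = - (l 0 (pt (f y) y) * ss l f y) := by
    rw [Fin.sum_univ_succ, con_zero, sgn_zero]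
    simp only [con_succ hd, sgn_succ, one_mul]
    unfold ss uh
    have h0 := hK.fut.ne'
    have e4 : l 0 (pt (f y) y) * (1 + ∑ i : Fin n, pd i f y * (l i.succ (pt (f y) y) /
        l 0 (pt (f y) y))) = l 0 (pt (f y) y) + ∑ i : Fin n, pd i f y * l i.succ (pt (f y) y) := by
      rw [mul_add, mul_one, Finset.mul_sum]
      congr 1
      exact Finset.sum_congr rfl fun i _ => by field_simp
    rw [e4, neg_add, ← Finset.sum_neg_distrib]
    exact congrArg₂ _ (by ring) (Finset.sum_congr rfl fun i _ => by ring)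
  rw [e1, e2, e3]; ring

theorem Nn_zero (hK : IsKS l V (pt (f y) y)) (hd : DifferentiableAt ℝ f y) :
    Nn l V f y 0 = -(1 + vv l V (pt (f y) y) * ss l f y) := by
  rw [Nn_eq hK hd, con_zero, sgn_zero]
  unfold vv; ring

theorem Nn_succ (hK : IsKS l V (pt (f y) y)) (hd : DifferentiableAt ℝ f y) (i : Fin n) :
    Nn l V f y i.succ = - pd i f y + vv l V (pt (f y) y) * ss l f y *
      uh l i.succ (pt (f y) y) := by
  rw [Nn_eq hK hd, con_succ hd, sgn_succ]
  unfold vv uh
  have h0 := hK.fut.ne'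
  field_simp

theorem Nn_con (hK : IsKS l V (pt (f y) y)) (hd : DifferentiableAt ℝ f y) :
    Nn l V f y 0 - ∑ i : Fin n, Nn l V f y i.succ * pd i f y = - bb l V f y := by
  simp only [Nn_zero hK hd, Nn_succ hK hd]
  have e1 : ∑ i : Fin n, (- pd i f y + vv l V (pt (f y) y) * ss l f y *
      uh l i.succ (pt (f y) y)) * pd i f y = - (∑ i, pd i f y ^ 2) +
      vv l V (pt (f y) y) * ss l f y * ∑ i : Fin n, pd i f y * uh l i.succ (pt (f y) y) := by
    rw [← Finset.sum_neg_distrib, Finset.mul_sum, ← Finset.sum_add_distrib]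
    exact Finset.sum_congr rfl fun i _ => by ring
  rw [e1]
  unfold bb
  have e2 : ∑ i : Fin n, pd i f y * uh l i.succ (pt (f y) y) = ss l f y - 1 := by
    unfold ss; ring
  rw [e2]; ring

theorem up_con (hK : IsKS l V (pt (f y) y)) (hd : DifferentiableAt ℝ f y) :
    -∑ a, ∑ b, Stmt.up (ksL l V) a b (pt (f y) y) * con f y a * con f y b = bb l V f y := by
  have e1 : ∑ a, ∑ b, Stmt.up (ksL l V) a b (pt (f y) y) * con f y a * con f y b =
      ∑ b, Nn l V f y b * con f y b := by
    rw [Finset.sum_comm]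
    refine Finset.sum_congr rfl fun b _ => ?_
    unfold Nn
    rw [Finset.sum_mul]
    exact Finset.sum_congr rfl fun a _ => by ring
  rw [e1, Fin.sum_univ_succ, con_zero]
  simp only [con_succ hd]
  have h := Nn_con (V := V) hK hd
  have e2 : ∑ i : Fin n, Nn l V f y i.succ * -pd i f y =
      - ∑ i : Fin n, Nn l V f y i.succ * pd i f y := by
    rw [← Finset.sum_neg_distrib]
    exact Finset.sum_congr rfl fun i _ => by ring
  rw [e2]
  linarith

/-- the derivatives of the metric are those of `h` -/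
theorem spd_ksL (hK : IsKS l V p) (a b c : Fin (n + 1)) :
    Stmt.pd a (fun q => ksL l V q b c) p = pd a (hh l V b c) p := by
  have h1 := dp_hh hK b c a
  have h2 : DP a (fun q => ksL l V q b c) (0 + pd a (hh l V b c) p) p :=
    (DP.const (k := a) (y := p) (if b = c then sgn b else 0)).add (DP.of h1.1)
  rw [Vale.Agent.P366.Bridge.pd_eq h2.1, h2.2, zero_add]

theorem aux_sum {m : ℕ} (u : Fin m → ℝ) (G : Fin m → Fin m → Fin m → ℝ) (t s : Fin m → ℝ) :
    ∑ b, ∑ c, ((∑ d, u d * G b c d) / 2) * t b * s c =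
      ∑ d, u d * ((∑ b, ∑ c, G b c d * t b * s c) / 2) := by
  have e1 : ∀ b c, ((∑ d, u d * G b c d) / 2) * t b * s c =
      ∑ d, u d * (G b c d * t b * s c) / 2 := by
    intro b c
    rw [Finset.sum_div, Finset.sum_mul, Finset.sum_mul]
    exact Finset.sum_congr rfl fun d _ => by ring
  simp only [e1]
  have e2 : ∀ b, ∑ c, ∑ d, u d * (G b c d * t b * s c) / 2 =
      ∑ d, ∑ c, u d * (G b c d * t b * s c) / 2 := fun b => Finset.sum_comm
  simp only [e2]
  rw [Finset.sum_comm]
  refine Finset.sum_congr rfl fun d _ => ?_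
  simp only [Finset.sum_div, Finset.mul_sum]
  exact Finset.sum_congr rfl fun b _ => Finset.sum_congr rfl fun c _ => by ring

/-- **the second fundamental form** -/
theorem K_formula (hS : IsSliceL C l V f D) (hy : 0 < D.F y) (hb : 0 < bb l V f y)
    (i j : Fin n) :
    bb l V f y * (∑ b, ∑ c, pd 0 (hh l V b c) (pt (f y) y) * tng f i y b * tng f j y c) =
      2 * (D.K y i j * √(bb l V f y) - pd i (pd j f) y) -
      (∑ d, Nn l V f y d * ((∑ c, tng f j y c * Dt f y i (hh l V c d)) +
        ∑ b, tng f i y b * Dt f y j (hh l V b d))) +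
      ∑ b, ∑ c, (∑ k : Fin n, Nn l V f y k.succ * Dt f y k (hh l V b c)) *
        tng f i y b * tng f j y c := by
  have hsm := hS.smf y hy.le
  have hd : DifferentiableAt ℝ f y := hsm.differentiableAt (by simp)
  have hK := hS.ks y hy.le
  set p := pt (f y) y with hp
  set t := tng f i y with ht
  set s := tng f j y with hs'
  -- the lapse does not vanish
  have hSf : D.K y i j * √(bb l V f y) - pd i (pd j f) y =
      ∑ a, con f y a * ∑ b, ∑ c, Stmt.chr (ksL l V) a b c p * t b * s c := by
    have h1 : lapse (ksL l V) f y = 1 / √(bb l V f y) := by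
      unfold lapse
      rw [up_con hK hd]
    have h2 := (Real.sqrt_pos.2 hb).ne'
    rw [hS.sff y hy.le i j]
    unfold indK
    rw [h1, KSN.spd2_eq hsm]
    unfold H353.N.hs
    field_simp
    ring
  rw [hSf]
  have e1 : ∀ a b c, Stmt.chr (ksL l V) a b c p = (∑ d, Stmt.up (ksL l V) a d p *
      (pd b (hh l V c d) p + pd c (hh l V b d) p - pd d (hh l V b c) p)) / 2 := by
    intro a b c
    unfold Stmt.chr
    simp only [spd_ksL hK]
  simp only [e1]
  have e2 : ∀ a, ∑ b, ∑ c, (∑ d, Stmt.up (ksL l V) a d p *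
      (pd b (hh l V c d) p + pd c (hh l V b d) p - pd d (hh l V b c) p)) / 2 * t b * s c =
      ∑ d, Stmt.up (ksL l V) a d p * ((∑ b, ∑ c,
        (pd b (hh l V c d) p + pd c (hh l V b d) p - pd d (hh l V b c) p) * t b * s c) / 2) :=
    fun a => aux_sum _ (fun b c d => pd b (hh l V c d) p + pd c (hh l V b d) p -
      pd d (hh l V b c) p) t s
  simp only [e2]
  have e3 : ∑ a, con f y a * ∑ d, Stmt.up (ksL l V) a d p * ((∑ b, ∑ c,
        (pd b (hh l V c d) p + pd c (hh l V b d) p - pd d (hh l V b c) p) * t b * s c) / 2) =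
      ∑ d, Nn l V f y d * ((∑ b, ∑ c,
        (pd b (hh l V c d) p + pd c (hh l V b d) p - pd d (hh l V b c) p) * t b * s c) / 2) := by
    simp only [Finset.mul_sum]
    rw [Finset.sum_comm]
    refine Finset.sum_congr rfl fun d _ => ?_
    unfold Nn
    rw [Finset.sum_mul]
    exact Finset.sum_congr rfl fun a _ => by ring
  rw [e3]
  have e4 : ∀ d, ∑ b, ∑ c,
        (pd b (hh l V c d) p + pd c (hh l V b d) p - pd d (hh l V b c) p) * t b * s c =
      (∑ c, s c * Dt f y i (hh l V c d)) + (∑ b, t b * Dt f y j (hh l V b d)) -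
        ∑ b, ∑ c, pd d (hh l V b c) p * t b * s c := by
    intro d
    have a1 : ∀ A : E (n + 1) → ℝ, ∀ k : Fin n, ∑ b, pd b A p * tng f k y b = Dt f y k A := by
      intro A k
      rw [sum_tng (fun b => pd b A p) f k y, Vale.Agent.P366.Bridge.pd_eq hd]
      unfold Dt
      ring
    have a2 : ∑ b, ∑ c, pd b (hh l V c d) p * t b * s c = ∑ c, s c * Dt f y i (hh l V c d) := by
      rw [Finset.sum_comm]
      refine Finset.sum_congr rfl fun c _ => ?_
      rw [← a1 (hh l V c d) i, Finset.mul_sum]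
      exact Finset.sum_congr rfl fun b _ => by ring
    have a3 : ∑ b, ∑ c, pd c (hh l V b d) p * t b * s c = ∑ b, t b * Dt f y j (hh l V b d) := by
      refine Finset.sum_congr rfl fun b _ => ?_
      rw [← a1 (hh l V b d) j, Finset.mul_sum]
      exact Finset.sum_congr rfl fun c _ => by ring
    rw [← a2, ← a3]
    simp only [← Finset.sum_add_distrib, ← Finset.sum_sub_distrib]
    exact Finset.sum_congr rfl fun b _ => Finset.sum_congr rfl fun c _ => by ring
  simp only [e4]
  -- the normal derivative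
  have e5 : ∑ d, Nn l V f y d * ∑ b, ∑ c, pd d (hh l V b c) p * t b * s c =
      - bb l V f y * (∑ b, ∑ c, pd 0 (hh l V b c) p * t b * s c) +
      ∑ b, ∑ c, (∑ k : Fin n, Nn l V f y k.succ * Dt f y k (hh l V b c)) * t b * s c := by
    have b1 : ∀ b c, ∑ d, Nn l V f y d * pd d (hh l V b c) p =
        - bb l V f y * pd 0 (hh l V b c) p +
          ∑ k : Fin n, Nn l V f y k.succ * Dt f y k (hh l V b c) := by
      intro b c
      rw [← Nn_con hK hd, Fin.sum_univ_succ]
      unfold Dt
      have b2 : ∑ k : Fin n, Nn l V f y k.succ * (pd k.succ (hh l V b c) p +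
          pd k f y * pd 0 (hh l V b c) p) = ∑ k : Fin n, Nn l V f y k.succ *
          pd k.succ (hh l V b c) p + (∑ k : Fin n, Nn l V f y k.succ * pd k f y) *
          pd 0 (hh l V b c) p := by
        rw [Finset.sum_mul, ← Finset.sum_add_distrib]
        exact Finset.sum_congr rfl fun k _ => by ring
      rw [b2]; ring
    have b3 : ∑ d, Nn l V f y d * ∑ b, ∑ c, pd d (hh l V b c) p * t b * s c =
        ∑ b, ∑ c, (∑ d, Nn l V f y d * pd d (hh l V b c) p) * t b * s c := by
      simp only [Finset.mul_sum, Finset.sum_mul]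
      rw [Finset.sum_comm]
      refine Finset.sum_congr rfl fun b _ => ?_
      rw [Finset.sum_comm]
      exact Finset.sum_congr rfl fun c _ => Finset.sum_congr rfl fun d _ => by ring
    rw [b3]
    simp only [b1]
    rw [Finset.mul_sum, ← Finset.sum_add_distrib]
    refine Finset.sum_congr rfl fun b _ => ?_
    rw [Finset.mul_sum, ← Finset.sum_add_distrib]
    exact Finset.sum_congr rfl fun c _ => by ring
  have e6 : ∑ d, Nn l V f y d * (((∑ c, s c * Dt f y i (hh l V c d)) +
      (∑ b, t b * Dt f y j (hh l V b d)) - ∑ b, ∑ c, pd d (hh l V b c) p * t b * s c) / 2) =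
      ((∑ d, Nn l V f y d * ((∑ c, s c * Dt f y i (hh l V c d)) +
        ∑ b, t b * Dt f y j (hh l V b d))) -
        ∑ d, Nn l V f y d * ∑ b, ∑ c, pd d (hh l V b c) p * t b * s c) / 2 := by
    rw [← Finset.sum_sub_distrib, Finset.sum_div]
    exact Finset.sum_congr rfl fun d _ => by ring
  rw [e6, e5]
  ring

end Vale.Agent.P366.KSL
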