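import Vale.Agent.P366.H208.L.AFd

/-! Bounds on all first derivatives of the Kerr-Schild field at a point of a slice. -/

open MeasureTheory Metric Filter Topology Set
open scoped ContDiff ENNReal

noncomputable section
namespace Vale.Agent.P366.KSL

open Vale.Agent.P366 (pd E)
open Vale.Agent.P366.H353.N
open Vale.Agent.P366.Kerr (NullCone Psi pt sp indG indK sgn ksL ein IsKS IsGraph
  IsSliceL HasDEC tng con lapse)
open Vale.Agent.P366.KSN (Y dts sg)
open Vale.Agent.P366.KSN.X5 (DP cd_pd)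

variable {n : ℕ} {C : NullCone n} {l : Fin (n + 1) → E (n + 1) → ℝ} {V : E (n + 1) → ℝ}
  {f : E n → ℝ} {D : Stmt.Exterior n} {p : E (n + 1)} {x y : E n}

theorem abs_sum_le2 {m : ℕ} {g : Fin m → Fin m → ℝ} {e : ℝ} (h : ∀ i j, |g i j| ≤ e) :
    |∑ i, ∑ j, g i j| ≤ m * (m * e) := abs_sum_le' fun i => abs_sum_le' fun j => h i j

theorem tng_le (hd : DifferentiableAt ℝ f y) {δ : ℝ} (hδ1 : δ ≤ 1) (hf : ∀ i, |pd i f y| ≤ δ)
    (i : Fin n) (b : Fin (n + 1)) : |tng f i y b| ≤ 1 := by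
  refine Fin.cases ?_ (fun k => ?_) b
  · show |Stmt.pd i f y| ≤ 1
    rw [Vale.Agent.P366.Bridge.pd_eq hd]
    exact (hf i).trans hδ1
  · show |(Pi.single i (1 : ℝ) : Fin n → ℝ) k| ≤ 1
    rw [Pi.single_apply]
    split_ifs <;> simp

theorem T_eq (hK : IsKS l V (pt (f y) y)) (hd : DifferentiableAt ℝ f y) (i j : Fin n) :
    ∑ b, ∑ c, pd 0 (hh l V b c) (pt (f y) y) * tng f i y b * tng f j y c =
      pd 0 (vv l V) (pt (f y) y) * ((uh l i.succ (pt (f y) y) + pd i f y) *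
        (uh l j.succ (pt (f y) y) + pd j f y)) +
      vv l V (pt (f y) y) * ((pd 0 (uh l i.succ) (pt (f y) y) + 0) *
        (uh l j.succ (pt (f y) y) + pd j f y) + (uh l i.succ (pt (f y) y) + pd i f y) *
        (pd 0 (uh l j.succ) (pt (f y) y) + 0)) := by
  set p := pt (f y) y with hp
  have a1 : ∀ k : Fin n, ∑ b, uh l b p * tng f k y b = uh l k.succ p + pd k f y := fun k => by
    rw [sum_tng (fun b => uh l b p) f k y, Vale.Agent.P366.Bridge.pd_eq hd, uh_zero hK]; ring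
  have a2 : ∀ k : Fin n, ∑ b, pd 0 (uh l b) p * tng f k y b = pd 0 (uh l k.succ) p + 0 :=
    fun k => by
      rw [sum_tng (fun b => pd 0 (uh l b) p) f k y, pd_uh_zero hK]; ring
  rw [← a1 i, ← a1 j, ← a2 i, ← a2 j]
  have e1 : ∀ b c, pd 0 (hh l V b c) p * tng f i y b * tng f j y c =
      pd 0 (vv l V) p * ((uh l b p * tng f i y b) * (uh l c p * tng f j y c)) +
      vv l V p * ((pd 0 (uh l b) p * tng f i y b) * (uh l c p * tng f j y c)) +
      vv l V p * ((uh l b p * tng f i y b) * (pd 0 (uh l c) p * tng f j y c)) := by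
    intro b c
    rw [(dp_hh hK b c 0).2]; ring
  simp only [e1, Finset.sum_add_distrib, ← Finset.mul_sum, ← Finset.sum_mul]
  ring

/-- **the normal derivative** -/
theorem dt_le (hS : IsSliceL C l V f D) (hy : 0 < D.F y) {e E' δ : ℝ}
    (hδ : (n : ℝ) * δ ≤ 1 / 16) (hf : ∀ i, |pd i f y| ≤ δ) (hff : ∀ i j, |pd i (pd j f) y| ≤ e)
    (hv : |vv l V (pt (f y) y)| ≤ 1 / 16) (hk : ∀ i j, |D.K y i j| ≤ e)
    (hE : ∀ k a b, |Dt f y k (hh l V a b)| ≤ E') :
    |pd 0 (vv l V) (pt (f y) y)| ≤ 50 * (n : ℝ) ^ 3 * (12 * (e + ((n : ℝ) + 1) ^ 3 * E')) ∧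
    ∀ i : Fin n, |vv l V (pt (f y) y) * pd 0 (uh l i.succ) (pt (f y) y)| ≤
      50 * (n : ℝ) ^ 3 * (12 * (e + ((n : ℝ) + 1) ^ 3 * E')) := by
  have hsm := hS.smf y hy.le
  have hd : DifferentiableAt ℝ f y := hsm.differentiableAt (by simp)
  have hK := hS.ks y hy.le
  have hu1 : ∑ i : Fin n, uh l i.succ (pt (f y) y) ^ 2 = 1 := uh_sq hK
  have hn : 0 < n := by
    rcases Nat.eq_zero_or_pos n with h | h
    · subst h; simp at hu1
    · exact h
  have hn1 : (1 : ℝ) ≤ n := by exact_mod_cast hn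
  have hδ0 : 0 ≤ δ := (abs_nonneg _).trans (hf ⟨0, hn⟩)
  have hδ1 : δ ≤ 1 / 16 := by nlinarith
  have he0 : 0 ≤ e := (abs_nonneg _).trans (hff ⟨0, hn⟩ ⟨0, hn⟩)
  have hE0 : 0 ≤ E' := (abs_nonneg _).trans (hE ⟨0, hn⟩ 0 0)
  set p := pt (f y) y with hp
  have hU := uh_le hK
  -- s and beta
  have hs1 : |ss l f y - 1| ≤ 1 / 16 := by
    have e1 : ss l f y - 1 = ∑ i : Fin n, pd i f y * uh l i.succ p := by
      unfold ss; ring
    rw [e1]
    refine (abs_sum_le' (e := δ * 1) fun i => abs_mul_le' (hf i) (hU i.succ)).trans ?_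
    linarith
  have hs2 : |ss l f y| ≤ 17 / 16 := by
    have := abs_add_le (ss l f y - 1) 1
    rw [sub_add_cancel, abs_one] at this
    linarith
  have hvs : |vv l V p * ss l f y| ≤ 1 / 16 * (17 / 16) := abs_mul_le' hv hs2
  have hvs2 : |vv l V p * ss l f y ^ 2| ≤ 1 / 16 * (17 / 16 * (17 / 16)) := by
    rw [pow_two]
    exact abs_mul_le' hv (abs_mul_le' hs2 hs2)
  have hff2 : |∑ i, pd i f y ^ 2| ≤ n * (δ * δ) := abs_sum_le' fun i => by
    rw [pow_two]; exact abs_mul_le' (hf i) (hf i)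
  have hff3 : |∑ i, pd i f y ^ 2| ≤ 1 / 256 := by nlinarith
  have hb1 : 1 / 2 ≤ bb l V f y := by
    unfold bb
    have h1 := (abs_le.1 hff3).2
    have h2 := (abs_le.1 hvs2).1
    linarith
  have hb2 : bb l V f y ≤ 4 := by
    unfold bb
    have h1 := (abs_le.1 hff3).1
    have h2 := (abs_le.1 hvs2).2
    linarith
  have hb0 : 0 < bb l V f y := by linarith
  have hsq : |√(bb l V f y)| ≤ 2 := by
    rw [abs_of_nonneg (Real.sqrt_nonneg _)]
    exact (Real.sqrt_le_sqrt hb2).trans (by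
      rw [show (4 : ℝ) = 2 ^ 2 by norm_num, Real.sqrt_sq (by norm_num)])
  have hN : ∀ a, |Nn l V f y a| ≤ 2 := by
    intro a
    refine Fin.cases ?_ (fun k => ?_) a
    · rw [Nn_zero hK hd, abs_neg]
      have := abs_add_le 1 (vv l V p * ss l f y)
      rw [abs_one] at this
      linarith
    · rw [Nn_succ hK hd]
      have h1 := abs_add_le (- pd k f y) (vv l V p * ss l f y * uh l k.succ p)
      rw [abs_neg] at h1
      have h2 : |vv l V p * ss l f y * uh l k.succ p| ≤ 1 / 16 * (17 / 16) * 1 :=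
        abs_mul_le' hvs (hU _)
      have h3 := hf k
      linarith
  have hT : ∀ i b, |tng f i y b| ≤ 1 := tng_le hd (by linarith) hf
  have hM : (1 : ℝ) ≤ (n : ℝ) + 1 := by linarith
  set M : ℝ := (n : ℝ) + 1 with hMdef
  have hcast : ((n + 1 : ℕ) : ℝ) = M := by push_cast; rfl
  -- the bound on T
  have hTb : ∀ i j, |∑ b, ∑ c, pd 0 (hh l V b c) p * tng f i y b * tng f j y c| ≤
      12 * (e + M ^ 3 * E') := by
    intro i j
    have h1 := K_formula hS hy hb0 i j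
    have h2 : |2 * (D.K y i j * √(bb l V f y) - pd i (pd j f) y)| ≤ 2 * (e * 2 + e) := by
      refine abs_mul_le' (by norm_num) ((abs_sub _ _).trans (add_le_add ?_ (hff i j)))
      exact abs_mul_le' (hk i j) hsq
    have h3 : |∑ d, Nn l V f y d * ((∑ c, tng f j y c * Dt f y i (hh l V c d)) +
        ∑ b, tng f i y b * Dt f y j (hh l V b d))| ≤ M * (2 * (M * (1 * E') + M * (1 * E'))) := by
      rw [← hcast]
      refine abs_sum_le' fun d => abs_mul_le' (hN d) ((abs_add_le _ _).trans (add_le_add ?_ ?_))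
      · exact abs_sum_le' fun c => abs_mul_le' (hT j c) (hE i c d)
      · exact abs_sum_le' fun c => abs_mul_le' (hT i c) (hE j c d)
    have h4 : |∑ b, ∑ c, (∑ k : Fin n, Nn l V f y k.succ * Dt f y k (hh l V b c)) *
        tng f i y b * tng f j y c| ≤ M * (M * (n * (2 * E') * 1 * 1)) := by
      rw [← hcast]
      refine abs_sum_le2 fun b c => abs_mul_le' (abs_mul_le' ?_ (hT i b)) (hT j c)
      exact abs_sum_le' fun k => abs_mul_le' (hN k.succ) (hE k b c)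
    have h5 : |bb l V f y * (∑ b, ∑ c, pd 0 (hh l V b c) p * tng f i y b * tng f j y c)| ≤
        2 * (e * 2 + e) + M * (2 * (M * (1 * E') + M * (1 * E'))) +
        M * (M * (n * (2 * E') * 1 * 1)) := by
      rw [h1]
      refine (abs_add_le _ _).trans (add_le_add ((abs_sub _ _).trans (add_le_add h2 h3)) h4)
    rw [abs_mul, abs_of_pos hb0] at h5
    have h6 : 1 / 2 * |∑ b, ∑ c, pd 0 (hh l V b c) p * tng f i y b * tng f j y c| ≤
        bb l V f y * |∑ b, ∑ c, pd 0 (hh l V b c) p * tng f i y b * tng f j y c| :=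
      mul_le_mul_of_nonneg_right hb1 (abs_nonneg _)
    have h7 : M * (2 * (M * (1 * E') + M * (1 * E'))) = 4 * (M ^ 2 * E') := by ring
    have h8 : M * (M * (n * (2 * E') * 1 * 1)) ≤ 2 * (M ^ 3 * E') := by
      have : (n : ℝ) * (M ^ 2 * E') ≤ M * (M ^ 2 * E') :=
        mul_le_mul_of_nonneg_right (by rw [hMdef]; linarith) (by positivity)
      nlinarith
    have h9 : M ^ 2 * E' ≤ M ^ 3 * E' := by
      refine mul_le_mul_of_nonneg_right ?_ hE0
      have : M ^ 2 * 1 ≤ M ^ 2 * M := mul_le_mul_of_nonneg_left hM (sq_nonneg _)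
      linarith [pow_succ M 2]
    rw [h7] at h5
    linarith
  have h := alg_bound (v := vv l V p) (dv := pd 0 (vv l V) p) (ε := 12 * (e + M ^ 3 * E'))
    (d := 0) (u := fun i => uh l i.succ p) (du := fun i => pd 0 (uh l i.succ) p)
    (φ := fun i => pd i f y) (dφ := fun _ => 0) hu1 (uh_orth hK 0) hδ hf
    (fun i => by rw [mul_zero, abs_zero])
    (fun i j => by
      have h1 := hTb i j
      rwa [T_eq hK hd i j] at h1)
  rw [add_zero] at h
  exact h

/-- the constant -/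
def Kn (n : ℕ) : ℝ := 3 * (50 * (n : ℝ) ^ 3 * (12 * (1 + ((n : ℝ) + 1) ^ 3 * (600 * (n : ℝ) ^ 3)))) +
  600 * (n : ℝ) ^ 3

/-- **all first derivatives** -/
theorem dh_le (hS : IsSliceL C l V f D) (hy : 0 < D.F y) {e δ : ℝ}
    (hδ : (n : ℝ) * δ ≤ 1 / 16) (hf : ∀ i, |pd i f y| ≤ δ) (hff : ∀ i j, |pd i (pd j f) y| ≤ e)
    (hv : |vv l V (pt (f y) y)| ≤ 1 / 16) (hk : ∀ i j, |D.K y i j| ≤ e)
    (hg : ∀ i j k, |pd k (fun z => D.g z i j) y| ≤ e) (a b c : Fin (n + 1)) :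
    |pd c (hh l V a b) (pt (f y) y)| ≤ Kn n * e := by
  have hK := hS.ks y hy.le
  have hu1 : ∑ i : Fin n, uh l i.succ (pt (f y) y) ^ 2 = 1 := uh_sq hK
  have hn : 0 < n := by
    rcases Nat.eq_zero_or_pos n with h | h
    · subst h; simp at hu1
    · exact h
  have hn1 : (1 : ℝ) ≤ n := by exact_mod_cast hn
  have hδ0 : 0 ≤ δ := (abs_nonneg _).trans (hf ⟨0, hn⟩)
  have hδ1 : δ ≤ 1 / 16 := by nlinarith
  have he0 : 0 ≤ e := (abs_nonneg _).trans (hff ⟨0, hn⟩ ⟨0, hn⟩)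
  have hDt : ∀ k a b, |Dt f y k (hh l V a b)| ≤ 600 * (n : ℝ) ^ 3 * e := by
    intro k a b
    obtain ⟨h1, h2⟩ := Dt_le hS hy hδ hf hff (hv.trans (by norm_num)) hg k
    rw [Dt_hh hK a b k]
    have h0 : Dt f y k (uh l 0) = 0 := by
      unfold Dt
      rw [pd_uh_zero hK, pd_uh_zero hK]; ring
    have h3 := der_le (v := vv l V (pt (f y) y)) (dv := Dt f y k (vv l V))
      (U := fun a => uh l a (pt (f y) y)) (dU := fun a => Dt f y k (uh l a)) (uh_le hK) h0 h1 h2 a b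
    linarith
  obtain ⟨h1, h2⟩ := dt_le hS hy hδ hf hff hv hk hDt
  have h0 : ∀ a b, |pd 0 (hh l V a b) (pt (f y) y)| ≤
      3 * (50 * (n : ℝ) ^ 3 * (12 * (e + ((n : ℝ) + 1) ^ 3 * (600 * (n : ℝ) ^ 3 * e)))) := by
    intro a b
    rw [(dp_hh hK a b 0).2]
    exact der_le (v := vv l V (pt (f y) y)) (dv := pd 0 (vv l V) (pt (f y) y))
      (U := fun a => uh l a (pt (f y) y)) (dU := fun a => pd 0 (uh l a) (pt (f y) y)) (uh_le hK)
      (pd_uh_zero hK 0) h1 h2 a b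
  have hKe : Kn n * e = 3 * (50 * (n : ℝ) ^ 3 * (12 * (e + ((n : ℝ) + 1) ^ 3 *
      (600 * (n : ℝ) ^ 3 * e)))) + 600 * (n : ℝ) ^ 3 * e := by
    unfold Kn; ring
  rw [hKe]
  have hp0 : 0 ≤ 600 * (n : ℝ) ^ 3 * e := by positivity
  refine Fin.cases ?_ (fun k => ?_) c
  · have := h0 a b
    linarith
  · have e1 : pd k.succ (hh l V a b) (pt (f y) y) = Dt f y k (hh l V a b) -
        pd k f y * pd 0 (hh l V a b) (pt (f y) y) := by
      unfold Dt; ring
    rw [e1]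
    have h3 : |pd k f y * pd 0 (hh l V a b) (pt (f y) y)| ≤ 1 * (3 * (50 * (n : ℝ) ^ 3 *
        (12 * (e + ((n : ℝ) + 1) ^ 3 * (600 * (n : ℝ) ^ 3 * e))))) :=
      abs_mul_le' ((hf k).trans (by linarith)) (h0 a b)
    have h4 := abs_sub (Dt f y k (hh l V a b)) (pd k f y * pd 0 (hh l V a b) (pt (f y) y))
    have h5 := hDt k a b
    linarith

end Vale.Agent.P366.KSL
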